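import Mathlib

/-!
P007: totally real fields of every composite degree with an intermediate field.
-/

namespace Vale.Agent.P007.Composite

open Polynomial IntermediateField NumberField

/-- For `a, b ≥ 2` a totally real field of degree `a * b` has a subfield of degree `a`. -/
theorem exists_field_aux (a b : ℕ) (ha : 2 ≤ a) (hb : 2 ≤ b) (p : ℕ) (hp : p.Prime)
    (hdiv : 2 * (a * b) ∣ p - 1) (L : Type) [Field L] [CharZero L]
    [IsCyclotomicExtension {p} ℚ L] :
    ∃ (K : Type) (_ : Field K) (_ : NumberField K) (σ : Fin (a * b) → K →+* ℝ),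
      Module.finrank ℚ K = a * b ∧ Function.Injective σ ∧
      ∃ F : IntermediateField ℚ K, F ≠ ⊥ ∧ F ≠ ⊤ := by
  set n := a * b with hn
  have hn0 : 0 < n := by positivity
  obtain ⟨m, hm⟩ := hdiv
  have hm0 : 0 < m := Nat.pos_of_ne_zero fun h => by
    have := hp.two_le; simp [h] at hm; omega
  have : Fact p.Prime := ⟨hp⟩
  have : NeZero (p : ℚ) := ⟨Nat.cast_ne_zero.2 hp.ne_zero⟩
  have : NeZero p := ⟨hp.ne_zero⟩
  have : NumberField L := IsCyclotomicExtension.numberField {p} ℚ L
  have : IsGalois ℚ L := IsCyclotomicExtension.isGalois {p} ℚ L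
  let e : Gal(L/ℚ) ≃* (ZMod p)ˣ :=
    IsCyclotomicExtension.autEquivPow L (cyclotomic.irreducible_rat hp.pos)
  let Hs : ℕ → Subgroup Gal(L/ℚ) := fun d =>
    (powMonoidHom d : (ZMod p)ˣ →* (ZMod p)ˣ).ker.comap e.toMonoidHom
  have hHs : ∀ d, d ∣ p - 1 → Nat.card (Hs d) = d := by
    intro d hd
    have : Nat.card (Hs d) = Nat.card (powMonoidHom d : (ZMod p)ˣ →* (ZMod p)ˣ).ker := by
      refine Nat.card_congr ?_
      exact e.toEquiv.subtypeEquiv fun x => Iff.rfl
    rw [this, IsCyclic.card_powMonoidHom_ker, Nat.card_units, Nat.card_zmod]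
    exact Nat.gcd_eq_right hd
  have hL : Module.finrank ℚ L = p - 1 := by
    rw [IsCyclotomicExtension.finrank L (cyclotomic.irreducible_rat hp.pos), Nat.totient_prime hp]
  have hfin : ∀ d, d ∣ p - 1 → Module.finrank ℚ (fixedField (Hs d)) * d = p - 1 := by
    intro d hd
    have h := Module.finrank_mul_finrank ℚ (fixedField (Hs d)) L
    rw [finrank_fixedField_eq_card, hHs d hd, hL] at h
    exact h
  let K := fixedField (Hs (2 * m))
  have hdK : 2 * m ∣ p - 1 := ⟨n, by rw [hm]; ring⟩
  have hdF : 2 * m * b ∣ p - 1 := ⟨a, by rw [hm, hn]; ring⟩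
  have hK : Module.finrank ℚ K = n := by
    have h := hfin _ hdK
    rw [hm] at h
    exact Nat.eq_of_mul_eq_mul_right (by omega : 0 < 2 * m) (by linarith)
  have hF : Module.finrank ℚ (fixedField (Hs (2 * m * b))) = a := by
    have h := hfin _ hdF
    rw [hm] at h
    refine Nat.eq_of_mul_eq_mul_right (by positivity : 0 < 2 * m * b) ?_
    rw [h, hn]; ring
  have hFK : fixedField (Hs (2 * m * b)) ≤ K := by
    refine IntermediateField.fixedField_antitone ?_
    intro x hx
    simp only [Hs, Subgroup.mem_comap, MonoidHom.mem_ker, powMonoidHom_apply] at hx ⊢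
    rw [pow_mul, hx, one_pow]
  let F := IntermediateField.restrict hFK
  have hFr : Module.finrank ℚ F = a := by
    rw [← (IntermediateField.restrictAlgEquiv hFK).toLinearEquiv.finrank_eq, hF]
  have hreal : ∀ φ : K →+* ℂ, ComplexEmbedding.IsReal φ := by
    intro φ
    let ψ : L →+* ℂ := ComplexEmbedding.lift L φ
    obtain ⟨c, hc⟩ := ComplexEmbedding.exists_comp_symm_eq_of_comp_eq (k := ℚ)
      ψ (ComplexEmbedding.conjugate ψ) (RingHom.ext_rat _ _)
    have hc' : ∀ x, starRingEnd ℂ (ψ x) = ψ (c.symm x) := fun x =>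
      (RingHom.congr_fun hc x).symm
    have hcc : c.symm * c.symm = 1 := by
      refine AlgEquiv.ext fun x => ψ.injective ?_
      rw [AlgEquiv.mul_apply, ← hc', ← hc', Complex.conj_conj]
      rfl
    have hcH : c.symm ∈ Hs (2 * m) := by
      simp only [Hs, Subgroup.mem_comap, MonoidHom.mem_ker, powMonoidHom_apply]
      rw [pow_mul, sq]
      simp only [← map_mul, hcc, map_one, one_pow]
    rw [ComplexEmbedding.isReal_iff]
    refine RingHom.ext fun x => ?_
    have hφ : φ x = ψ (x : L) := (ComplexEmbedding.lift_algebraMap_apply L φ x).symm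
    rw [ComplexEmbedding.conjugate_coe_eq, hφ, hc']
    exact congrArg ψ (x.2 ⟨c.symm, hcH⟩)
  let E : Fin n ≃ (K →+* ℂ) :=
    (Fintype.equivFinOfCardEq ((NumberField.Embeddings.card K ℂ).trans hK)).symm
  refine ⟨K, inferInstance, inferInstance, fun i => (hreal (E i)).embedding, hK, ?_, F, ?_, ?_⟩
  · intro i j h
    refine E.injective (RingHom.ext fun x => ?_)
    rw [← (hreal (E i)).coe_embedding_apply x, ← (hreal (E j)).coe_embedding_apply x]
    exact congrArg _ (RingHom.congr_fun h x)
  · intro h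
    have h1 := (IntermediateField.finrank_eq_one_iff.2 h).symm.trans hFr
    omega
  · intro h
    have h1 : Module.finrank ℚ F = Module.finrank ℚ K :=
      (congrArg (fun F' : IntermediateField ℚ K => Module.finrank ℚ F') h).trans
        IntermediateField.finrank_top'
    rw [hFr, hK] at h1
    nlinarith

/-- Every product `a * b` of two integers at least two occurs as a degree. -/
theorem exists_field (a b : ℕ) (ha : 2 ≤ a) (hb : 2 ≤ b) :
    ∃ (K : Type) (_ : Field K) (_ : NumberField K) (σ : Fin (a * b) → K →+* ℝ),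
      Module.finrank ℚ K = a * b ∧ Function.Injective σ ∧
      ∃ F : IntermediateField ℚ K, F ≠ ⊥ ∧ F ≠ ⊤ := by
  have hn : 0 < a * b := by positivity
  obtain ⟨p, hp, -, hmod⟩ := Nat.exists_prime_gt_modEq_one 2 (k := 2 * (a * b)) (by omega)
  have : NeZero (p : ℚ) := ⟨Nat.cast_ne_zero.2 hp.ne_zero⟩
  have : NeZero p := ⟨hp.ne_zero⟩
  have hcyc : @IsCyclotomicExtension {p} ℚ (CyclotomicField p ℚ) _ _ (CyclotomicField.algebra p ℚ) :=
    CyclotomicField.isCyclotomicExtension p ℚ
  rw [Subsingleton.elim (CyclotomicField.algebra p ℚ) DivisionRing.toRatAlgebra] at hcyc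
  exact exists_field_aux a b ha hb p hp ((Nat.modEq_iff_dvd' hp.one_le).1 hmod.symm)
    (CyclotomicField p ℚ)

end Vale.Agent.P007.Composite
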