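import Mathlib

/-!
P007: orders whose ring contains a fixed irrational element of a proper intermediate field,
with discriminants tending to infinity, and an open invariant set missed by all their packets.
-/

namespace Vale.Agent.P007.Composite

open Matrix Filter

/-- There are orders `O k` of `K`, each given with a `ℤ`-basis `b k` whose embedded determinant is
nonzero, with squared determinants (that is, discriminants) tending to infinity, and one nonempty
open left `SL n ℤ`-invariant set `U`, no point of which has, for any `k`, the row lattice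
`t * σ(I)`, for a diagonal scaling `t` and an `O k`-stable additive subgroup `I` of `K`. -/
def HasObstructedOrders {n : ℕ} (K : Type) [Field K] (σ : Fin n → K →+* ℝ) : Prop :=
  ∃ (O : ℕ → Subring K) (b : ℕ → Fin n → K),
    (∀ k x, x ∈ O k ↔ ∃ z : Fin n → ℤ, x = ∑ i, z i • b k i) ∧
    (∀ k, (Matrix.of fun i j => σ j (b k i)).det ≠ 0) ∧
    Tendsto (fun k => (Matrix.of fun i j => σ j (b k i)).det ^ 2) atTop atTop ∧
    ∃ U : Set (SpecialLinearGroup (Fin n) ℝ), IsOpen U ∧ U.Nonempty ∧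
      (∀ γ : SpecialLinearGroup (Fin n) ℤ, ∀ g ∈ U,
        SpecialLinearGroup.map (Int.castRingHom ℝ) γ * g ∈ U) ∧
      ∀ (k : ℕ) (I : AddSubgroup K), (∀ a ∈ O k, ∀ x ∈ I, a * x ∈ I) →
        ∀ t : Fin n → ℝ, ∀ g ∈ U,
          {v | ∃ z : Fin n → ℤ, v = ∑ i, (z i : ℝ) • (g : Matrix (Fin n) (Fin n) ℝ) i} ≠
            (fun (x : K) (j : Fin n) => t j * σ j x) '' (I : Set K)

variable {n : ℕ}

/-- Row lattices which are not stable under the diagonal matrix `D`. -/
def bad (D : Matrix (Fin n) (Fin n) ℝ) : Set (SpecialLinearGroup (Fin n) ℝ) :=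
  {g | ∃ i j, ((g : Matrix (Fin n) (Fin n) ℝ) * D * (g⁻¹ : SpecialLinearGroup (Fin n) ℝ)) i j ∉
    Set.range ((↑) : ℤ → ℝ)}

theorem bad_isOpen (D : Matrix (Fin n) (Fin n) ℝ) : IsOpen (bad D) := by
  have h : bad D = ⋃ i, ⋃ j, (fun g : SpecialLinearGroup (Fin n) ℝ =>
      ((g : Matrix (Fin n) (Fin n) ℝ) * D * (g⁻¹ : SpecialLinearGroup (Fin n) ℝ)) i j) ⁻¹'
        (Set.range ((↑) : ℤ → ℝ))ᶜ := by
    ext g
    simp [bad]
  rw [h]
  refine isOpen_iUnion fun i => isOpen_iUnion fun j =>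
    Int.isClosedEmbedding_coe_real.isClosed_range.isOpen_compl.preimage ?_
  have h1 : Continuous fun g : SpecialLinearGroup (Fin n) ℝ => (g : Matrix (Fin n) (Fin n) ℝ) :=
    continuous_subtype_val
  have h2 : Continuous fun g : SpecialLinearGroup (Fin n) ℝ =>
      ((g⁻¹ : SpecialLinearGroup (Fin n) ℝ) : Matrix (Fin n) (Fin n) ℝ) := by
    simp only [Matrix.SpecialLinearGroup.coe_inv]
    exact h1.matrix_adjugate
  exact ((h1.matrix_mul continuous_const).matrix_mul h2).matrix_elem i j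

theorem one_mem_bad {d : Fin n → ℝ} (j : Fin n) (hj : d j ∉ Set.range ((↑) : ℤ → ℝ)) :
    (1 : SpecialLinearGroup (Fin n) ℝ) ∈ bad (diagonal d) :=
  ⟨j, j, by simpa using hj⟩

theorem bad_smul (D : Matrix (Fin n) (Fin n) ℝ) (γ : SpecialLinearGroup (Fin n) ℤ)
    (g : SpecialLinearGroup (Fin n) ℝ) (hg : g ∈ bad D) :
    SpecialLinearGroup.map (Int.castRingHom ℝ) γ * g ∈ bad D := by
  set c := SpecialLinearGroup.map (Int.castRingHom ℝ) γ with hc
  by_contra hno
  simp only [bad, Set.mem_ofPred_eq, not_exists, not_not] at hno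
  obtain ⟨i, j, hij⟩ := hg
  choose M hM using hno
  refine hij ⟨((γ⁻¹ : SpecialLinearGroup (Fin n) ℤ).1 * Matrix.of M * γ.1) i j, ?_⟩
  have hM' : ((c * g : SpecialLinearGroup (Fin n) ℝ) : Matrix (Fin n) (Fin n) ℝ) * D *
      ((c * g)⁻¹ : SpecialLinearGroup (Fin n) ℝ) = (Matrix.of M).map (Int.castRingHom ℝ) :=
    Matrix.ext fun a b => (hM a b).symm
  have key : (g : Matrix (Fin n) (Fin n) ℝ) * D * (g⁻¹ : SpecialLinearGroup (Fin n) ℝ) =
      ((γ⁻¹ : SpecialLinearGroup (Fin n) ℤ).1 * Matrix.of M * γ.1).map (Int.castRingHom ℝ) := by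
    rw [Matrix.map_mul, Matrix.map_mul, ← hM']
    have e1 : ((γ⁻¹ : SpecialLinearGroup (Fin n) ℤ).1).map (Int.castRingHom ℝ) =
        (c⁻¹ : SpecialLinearGroup (Fin n) ℝ).1 := by
      rw [hc, ← map_inv]; rfl
    have e2 : γ.1.map (Int.castRingHom ℝ) = c.1 := rfl
    rw [e1, e2]
    have e3 : (c⁻¹ : SpecialLinearGroup (Fin n) ℝ).1 * c.1 = 1 := by
      rw [← Matrix.SpecialLinearGroup.coe_mul, inv_mul_cancel]; rfl
    rw [Matrix.SpecialLinearGroup.coe_mul, _root_.mul_inv_rev,
      Matrix.SpecialLinearGroup.coe_mul]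
    simp only [Matrix.mul_assoc]
    rw [← Matrix.mul_assoc (c⁻¹ : SpecialLinearGroup (Fin n) ℝ).1 c.1, e3, Matrix.one_mul,
      Matrix.mul_one]
  rw [key]
  rfl

variable {K : Type} [Field K]

theorem packet_notMem (σ : Fin n → K →+* ℝ) (r : K) (S : Subring K) (hr : r ∈ S)
    (I : AddSubgroup K) (hI : ∀ a ∈ S, ∀ x ∈ I, a * x ∈ I)
    (t : Fin n → ℝ) (g : SpecialLinearGroup (Fin n) ℝ)
    (hg : g ∈ bad (diagonal fun j => σ j r)) :
    {v | ∃ z : Fin n → ℤ, v = ∑ i, (z i : ℝ) • (g : Matrix (Fin n) (Fin n) ℝ) i} ≠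
      (fun (x : K) (j : Fin n) => t j * σ j x) '' (I : Set K) := by
  intro heq
  have hrow : ∀ i, ∃ w : Fin n → ℤ, (fun j => (g : Matrix (Fin n) (Fin n) ℝ) i j * σ j r) =
      ∑ l, (w l : ℝ) • (g : Matrix (Fin n) (Fin n) ℝ) l := by
    intro i
    obtain ⟨x, hx, hxi⟩ := (Set.ext_iff.1 heq _).1 ⟨Pi.single i 1, by
      rw [Fintype.sum_eq_single i fun l hl => by simp [Pi.single_eq_of_ne hl]]⟩
    obtain ⟨w, hw⟩ := (Set.ext_iff.1 heq _).2 ⟨r * x, hI r hr x hx, rfl⟩
    refine ⟨w, ?_⟩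
    rw [← hw]
    funext j
    have := congrFun hxi j
    simp only [Pi.single_eq_same, Int.cast_one, Pi.smul_apply, one_smul] at this
    show (g : Matrix (Fin n) (Fin n) ℝ) i j * σ j r = t j * σ j (r * x)
    rw [map_mul, ← this]
    ring
  choose W hW using hrow
  have h : (g : Matrix (Fin n) (Fin n) ℝ) * (diagonal fun j => σ j r) =
      (Matrix.of W).map (fun z : ℤ => (z : ℝ)) * g := by
    ext i j
    have := congrFun (hW i) j
    simp only [Finset.sum_apply, Pi.smul_apply, smul_eq_mul] at this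
    rw [Matrix.mul_diagonal, Matrix.mul_apply]
    simpa using this
  obtain ⟨i, j, hij⟩ := hg
  refine hij ⟨W i j, ?_⟩
  rw [h, Matrix.mul_assoc, ← Matrix.SpecialLinearGroup.coe_mul, mul_inv_cancel]
  simp

/-- The embedded determinant of a basis is nonzero. -/
theorem det_ne_zero [CharZero K] (σ : Fin n → K →+* ℝ) (hσ : Function.Injective σ)
    (B : Module.Basis (Fin n) ℚ K) : (Matrix.of fun i j => σ j (B i)).det ≠ 0 := by
  intro h
  obtain ⟨v, hv0, hv⟩ := Matrix.exists_mulVec_eq_zero_iff.2 h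
  have hli : LinearIndependent ℝ (fun j => (⇑(σ j) : K → ℝ)) :=
    (linearIndependent_monoidHom K ℝ).comp (fun j => (σ j : K →* ℝ)) fun i j hij =>
      hσ (RingHom.ext fun x => DFunLike.congr_fun hij x)
  refine hv0 (funext fun j => Fintype.linearIndependent_iff.1 hli v (funext fun x => ?_) j)
  let φ : K →ₗ[ℚ] ℝ := ∑ j, v j • (σ j).toRatAlgHom.toLinearMap
  have hφ : φ = 0 := by
    refine B.ext fun i => ?_
    have := congrFun hv i
    simp only [Matrix.mulVec, dotProduct, Matrix.of_apply, Pi.zero_apply] at this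
    simp only [φ, LinearMap.coe_sum, Finset.sum_apply, LinearMap.smul_apply,
      LinearMap.zero_apply, AlgHom.toLinearMap_apply, RingHom.toRatAlgHom_apply, smul_eq_mul]
    rw [← this]
    exact Finset.sum_congr rfl fun j _ => mul_comm _ _
  have := LinearMap.congr_fun hφ x
  simpa [φ] using this

/-- The order `ℤ[α] + N 𝒪`. -/
def order {α : K} (hα : IsIntegral ℤ α) (N : ℤ) : Subring K where
  carrier := {x | ∃ p ∈ Algebra.adjoin ℤ {α}, ∃ y, IsIntegral ℤ y ∧ x = p + N • y}
  one_mem' := ⟨1, one_mem _, 0, isIntegral_zero, by simp⟩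
  zero_mem' := ⟨0, zero_mem _, 0, isIntegral_zero, by simp⟩
  add_mem' := by
    rintro _ _ ⟨p, hp, y, hy, rfl⟩ ⟨q, hq, z, hz, rfl⟩
    exact ⟨p + q, add_mem hp hq, y + z, hy.add hz, by simp [smul_add]; ring⟩
  neg_mem' := by
    rintro _ ⟨p, hp, y, hy, rfl⟩
    exact ⟨-p, neg_mem hp, -y, hy.neg, by simp [add_comm]⟩
  mul_mem' := by
    rintro _ _ ⟨p, hp, y, hy, rfl⟩ ⟨q, hq, z, hz, rfl⟩
    have hle : Algebra.adjoin ℤ {α} ≤ integralClosure ℤ K :=
      Algebra.adjoin_le (Set.singleton_subset_iff.2 hα)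
    exact ⟨p * q, mul_mem hp hq, p * z + y * q + N • (y * z),
      (((hle hp).mul hz).add (hy.mul (hle hq))).add ((hy.mul hz).smul N),
      by simp only [zsmul_eq_mul]; ring⟩

theorem mem_order_self {α : K} (hα : IsIntegral ℤ α) (N : ℤ) : α ∈ order hα N :=
  ⟨α, Algebra.subset_adjoin rfl, 0, isIntegral_zero, by simp⟩

/-- The general obstruction. -/
theorem hasObstructedOrders_of_intermediateField [NumberField K] (σ : Fin n → K →+* ℝ)
    (hn : Module.finrank ℚ K = n) (hσ : Function.Injective σ) (F : IntermediateField ℚ K)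
    (hbot : F ≠ ⊥) (htop : F ≠ ⊤) : HasObstructedOrders K σ := by
  -- an integral element of `F` outside `ℚ`
  obtain ⟨x, hxF, hxQ⟩ : ∃ x ∈ F, x ∉ (⊥ : IntermediateField ℚ K) := by
    by_contra h
    push Not at h
    exact hbot (le_antisymm h bot_le)
  obtain ⟨r, hr0, hr⟩ := ((IsFractionRing.isAlgebraic_iff ℤ ℚ K).2
    (Algebra.IsAlgebraic.isAlgebraic (R := ℚ) x)).exists_integral_multiple
  have hαF : r • x ∈ F := zsmul_mem hxF r
  have hαQ : r • x ∉ (⊥ : IntermediateField ℚ K) := by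
    intro h
    apply hxQ
    have hr' : (r : K) ≠ 0 := Int.cast_ne_zero.2 hr0
    have hx : x = (r : K)⁻¹ * (r • x) := by rw [zsmul_eq_mul]; field_simp
    rw [hx]
    exact mul_mem (inv_mem (intCast_mem _ r)) h
  generalize r • x = α at hr hαF hαQ
  have hn0 : 0 < n := hn ▸ Module.finrank_pos
  have hnot : σ ⟨0, hn0⟩ α ∉ Set.range ((↑) : ℤ → ℝ) := by
    rintro ⟨z, hz⟩
    have : α = (z : K) := (σ ⟨0, hn0⟩).injective (by rw [map_intCast]; exact hz.symm)
    exact hαQ (this ▸ intCast_mem _ z)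
  -- the integral basis
  have hcard : Fintype.card (Module.Free.ChooseBasisIndex ℤ (NumberField.RingOfIntegers K)) =
      n := by
    rw [← hn, Module.finrank_eq_card_basis (NumberField.integralBasis K)]
  set ω : Module.Basis (Fin n) ℚ K :=
    (NumberField.integralBasis K).reindex (Fintype.equivFinOfCardEq hcard) with hω
  have hspan : ∀ y, IsIntegral ℤ y → y ∈ Submodule.span ℤ (Set.range ω) := fun y hy => by
    rw [hω, Module.Basis.range_reindex, NumberField.mem_span_integralBasis]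
    exact ⟨⟨y, hy⟩, rfl⟩
  have hωint : ∀ l, IsIntegral ℤ (ω l) := fun l => by
    rw [hω, Module.Basis.reindex_apply, NumberField.integralBasis_apply]
    exact NumberField.RingOfIntegers.isIntegral_coe _
  have hle : Algebra.adjoin ℤ {α} ≤ integralClosure ℤ K :=
    Algebra.adjoin_le (Set.singleton_subset_iff.2 hr)
  have hleF : ∀ p ∈ Algebra.adjoin ℤ {α}, p ∈ F := fun p hp =>
    (Algebra.adjoin_le (S := F.toSubalgebra.restrictScalars ℤ)
      (Set.singleton_subset_iff.2 hαF)) hp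
  -- bases of the orders
  have hbasis : ∀ N : ℤ, N ≠ 0 → ∃ B : Module.Basis (Fin n) ℚ K,
      ∀ x, x ∈ order hr N ↔ ∃ z : Fin n → ℤ, x = ∑ i, z i • B i := by
    intro N hN
    let M : Submodule ℤ K := (order hr N).toAddSubgroup.toIntSubmodule
    have hM : M ≤ Submodule.span ℤ (Set.range ω) := by
      rintro _ ⟨p, hp, y, hy, rfl⟩
      exact add_mem (hspan p (hle hp)) (Submodule.smul_mem _ N (hspan y hy))
    obtain ⟨m, bM⟩ := Submodule.basisOfPidOfLE hM
      (Module.Basis.span (ω.linearIndependent.restrict_scalars' ℤ))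
    let b : Fin m → K := fun i => (bM i : K)
    have hli : LinearIndependent ℚ b :=
      (LinearIndependent.iff_fractionRing ℤ ℚ).1
        (bM.linearIndependent.map' M.subtype M.ker_subtype)
    have hmem : ∀ x, x ∈ order hr N ↔ ∃ z : Fin m → ℤ, x = ∑ i, z i • b i := by
      intro x
      constructor
      · intro hx
        refine ⟨fun i => bM.repr ⟨x, hx⟩ i, ?_⟩
        have := congrArg (M.subtype) (bM.sum_repr ⟨x, hx⟩)
        simp only [map_sum, map_zsmul, Submodule.subtype_apply] at this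
        exact this.symm
      · rintro ⟨z, rfl⟩
        exact Submodule.sum_mem M fun i _ => M.smul_mem (z i) (bM i).2
    have htopspan : ⊤ ≤ Submodule.span ℚ (Set.range b) := by
      rw [← ω.span_eq, Submodule.span_le]
      rintro _ ⟨l, rfl⟩
      have h1 : N • ω l ∈ order hr N :=
        ⟨0, zero_mem _, ω l, hωint l, (zero_add _).symm⟩
      obtain ⟨z, hz⟩ := (hmem _).1 h1
      have h2 : ω l = (N : ℚ)⁻¹ • ∑ i, z i • b i := by
        rw [← hz, ← Int.cast_smul_eq_zsmul ℚ, inv_smul_smul₀ (Int.cast_ne_zero.2 hN)]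
      rw [SetLike.mem_coe, h2]
      exact Submodule.smul_mem _ _ (Submodule.sum_mem _ fun i _ =>
        zsmul_mem (Submodule.subset_span (Set.mem_range_self i)) _)
    obtain rfl : m = n := by
      rw [← hn, Module.finrank_eq_card_basis (Module.Basis.mk hli htopspan), Fintype.card_fin]
    exact ⟨Module.Basis.mk hli htopspan, by simpa using hmem⟩
  choose B hB using fun k : ℕ => hbasis ((k : ℤ) + 1) (by omega)
  refine ⟨fun k => order hr ((k : ℤ) + 1), fun k i => B k i, hB,
    fun k => det_ne_zero σ hσ (B k), ?_, bad (diagonal fun j => σ j α), bad_isOpen _,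
    ⟨1, one_mem_bad _ hnot⟩, bad_smul _,
    fun k I hI t g hg => packet_notMem σ α _ (mem_order_self hr _) I hI t g hg⟩
  -- growth of the discriminant
  obtain ⟨f, hf0, hfF⟩ := Submodule.exists_dual_map_eq_bot_of_lt_top
    (p := F.toSubalgebra.toSubmodule) (lt_top_iff_ne_top.2 fun h => htop (by
      ext y
      exact ⟨fun _ => trivial, fun _ => show y ∈ F.toSubalgebra.toSubmodule by
        rw [h]; trivial⟩)) inferInstance
  have hfF' : ∀ y ∈ F, f y = 0 := fun y hy => by
    have : f y ∈ Submodule.map f F.toSubalgebra.toSubmodule := ⟨y, hy, rfl⟩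
    rwa [hfF, Submodule.mem_bot] at this
  obtain ⟨d, hd⟩ := IsLocalization.exist_integer_multiples_of_finite (nonZeroDivisors ℤ)
    (fun l => f (ω l))
  choose v hv using hd
  have hdne : ((d : ℤ) : ℚ) ≠ 0 := Int.cast_ne_zero.2 (nonZeroDivisors.coe_ne_zero d)
  have hv' : ∀ l, (v l : ℚ) = ((d : ℤ) : ℚ) * f (ω l) := fun l => by
    have := hv l
    simpa [Algebra.smul_def] using this
  obtain ⟨l₀, hl₀⟩ : ∃ l, v l ≠ 0 := by
    by_contra h
    push Not at h
    refine hf0 (ω.ext fun l => ?_)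
    have := hv' l
    simpa [h l, hdne] using this
  have hbound : ∀ k : ℕ, ((k : ℝ) + 1) / |(v l₀ : ℝ)| * |(Matrix.of fun i j => σ j (ω i)).det|
      ≤ |(Matrix.of fun i j => σ j (B k i)).det| := by
    intro k
    have hBmem : ∀ i, B k i ∈ order hr ((k : ℤ) + 1) := fun i => (hB k _).2
      ⟨Pi.single i 1, by
        rw [Fintype.sum_eq_single i fun l hl => by simp [Pi.single_eq_of_ne hl]]
        simp⟩
    choose p hp y hy hpy using hBmem
    have hint : ∀ z, IsIntegral ℤ z → ∃ c : Fin n → ℤ, z = ∑ l, c l • ω l := fun z hz => by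
      obtain ⟨c, hc⟩ := (Submodule.mem_span_range_iff_exists_fun ℤ).1 (hspan z hz)
      exact ⟨c, hc.symm⟩
    choose c hc using fun i => hint (B k i) (by
      rw [hpy i]; exact (hle (hp i)).add ((hy i).smul _))
    choose e he using fun i => hint (y i) (hy i)
    let C : Matrix (Fin n) (Fin n) ℤ := Matrix.of c
    have hmul : (Matrix.of fun i j => σ j (B k i)) =
        C.map (fun z : ℤ => (z : ℝ)) * Matrix.of fun i j => σ j (ω i) := by
      ext i j
      rw [Matrix.mul_apply, Matrix.of_apply, hc i, map_sum]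
      exact Finset.sum_congr rfl fun l _ => by rw [map_zsmul, zsmul_eq_mul]; rfl
    have hdet : (Matrix.of fun i j => σ j (B k i)).det =
        (C.det : ℝ) * (Matrix.of fun i j => σ j (ω i)).det := by
      rw [hmul, Matrix.det_mul]
      congr 1
      exact ((Int.castRingHom ℝ).map_det C).symm
    have hCv : C *ᵥ v = ((k : ℤ) + 1) • (Matrix.of e *ᵥ v) := by
      funext i
      have h1 : f (B k i) = (((k : ℤ) + 1 : ℤ) : ℚ) * f (y i) := by
        rw [hpy i, map_add, hfF' _ (hleF _ (hp i)), zero_add, map_zsmul, zsmul_eq_mul]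
      rw [hc i, he i, map_sum, map_sum] at h1
      simp only [map_zsmul] at h1
      apply Int.cast_injective (α := ℚ)
      simp only [Matrix.mulVec, dotProduct, Pi.smul_apply, smul_eq_mul, C, Matrix.of_apply,
        Int.cast_sum, Int.cast_mul, hv', Finset.mul_sum, zsmul_eq_mul] at h1 ⊢
      have h2 := congrArg (fun q => ((d : ℤ) : ℚ) * q) h1
      simp only [Finset.mul_sum] at h2
      convert h2 using 1 <;> exact Finset.sum_congr rfl fun l _ => by ring
    have hdvd : ((k : ℤ) + 1) ∣ C.det * v l₀ := by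
      have h := congrArg (fun u => C.adjugate *ᵥ u) hCv
      simp only [Matrix.mulVec_mulVec, Matrix.adjugate_mul, Matrix.smul_mulVec,
        Matrix.one_mulVec, Matrix.mulVec_smul] at h
      refine ⟨((C.adjugate * Matrix.of e) *ᵥ v) l₀, ?_⟩
      simpa using congrFun h l₀
    have hCne : C.det ≠ 0 := fun h0 => det_ne_zero σ hσ (B k) (by simp [hdet, h0])
    have hle' : ((k : ℤ) + 1) ≤ |C.det * v l₀| :=
      Int.le_of_dvd (abs_pos.2 (mul_ne_zero hCne hl₀)) ((dvd_abs _ _).2 hdvd)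
    have hR : ((k : ℝ) + 1) ≤ |(C.det : ℝ)| * |(v l₀ : ℝ)| := by
      rw [← abs_mul]
      exact_mod_cast hle'
    rw [hdet, abs_mul]
    refine mul_le_mul_of_nonneg_right ?_ (abs_nonneg _)
    rwa [div_le_iff₀ (abs_pos.2 (Int.cast_ne_zero.2 hl₀))]
  have hK : 0 < |(Matrix.of fun i j => σ j (ω i)).det| / |(v l₀ : ℝ)| :=
    div_pos (abs_pos.2 (det_ne_zero σ hσ ω)) (abs_pos.2 (Int.cast_ne_zero.2 hl₀))
  have hT : Tendsto (fun k => |(Matrix.of fun i j => σ j (B k i)).det|) atTop atTop :=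
    tendsto_atTop_mono (fun k => le_trans (le_of_eq (by ring)) (hbound k))
      ((tendsto_atTop_add_const_right _ 1 tendsto_natCast_atTop_atTop).const_mul_atTop hK)
  simpa only [sq_abs, Function.comp_def] using
    (tendsto_pow_atTop (two_ne_zero)).comp hT

end Vale.Agent.P007.Composite
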