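import Mathlib

/-!
P007: in every composite degree, totally real fields with unbounded discriminant containing one
fixed irrational algebraic integer.
-/

namespace Vale.Agent.P007.Composite

open IntermediateField NumberField Polynomial

/-- The `q`-th cyclotomic field inside `ℂ`. -/
noncomputable def Zeta (q : ℕ) : IntermediateField ℚ ℂ :=
  adjoin ℚ {Complex.exp (2 * Real.pi * Complex.I / q)}

theorem isCyclotomic_Zeta (q : ℕ) [NeZero q] : IsCyclotomicExtension {q} ℚ (Zeta q) := by
  have hζ := Complex.isPrimitiveRoot_exp q (NeZero.ne q)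
  change IsCyclotomicExtension {q} ℚ (Zeta q).toSubalgebra
  rw [Zeta, IntermediateField.adjoin_simple_toSubalgebra_of_isAlgebraic
    (hζ.isIntegral (NeZero.pos q)).tower_top.isAlgebraic]
  exact hζ.adjoin_isCyclotomicExtension ℚ

theorem finrank_Zeta (q : ℕ) [NeZero q] : Module.finrank ℚ (Zeta q) = q.totient := by
  have := isCyclotomic_Zeta q
  exact IsCyclotomicExtension.finrank (Zeta q) (cyclotomic.irreducible_rat (NeZero.pos q))

/-- A totally real field of degree `d` inside the `q`-th cyclotomic field. -/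
theorem exists_real_subfield (q d : ℕ) (hq : q.Prime) (hd : 0 < d) (hdiv : 2 * d ∣ q - 1) :
    ∃ L : IntermediateField ℚ ℂ, L ≤ Zeta q ∧ Module.finrank ℚ L = d ∧
      ∀ φ : L →+* ℂ, ∀ x, starRingEnd ℂ (φ x) = φ x := by
  have : Fact q.Prime := ⟨hq⟩
  have : NeZero q := ⟨hq.ne_zero⟩
  have hcyc := isCyclotomic_Zeta q
  have : NumberField (Zeta q) := IsCyclotomicExtension.numberField {q} ℚ (Zeta q)
  have : IsGalois ℚ (Zeta q) := IsCyclotomicExtension.isGalois {q} ℚ (Zeta q)
  obtain ⟨m, hm⟩ := hdiv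
  have hm0 : 0 < m := Nat.pos_of_ne_zero fun h => by
    have := hq.two_le; simp [h] at hm; omega
  let e : Gal((Zeta q)/ℚ) ≃* (ZMod q)ˣ :=
    IsCyclotomicExtension.autEquivPow (Zeta q) (cyclotomic.irreducible_rat hq.pos)
  let H : Subgroup Gal((Zeta q)/ℚ) :=
    (powMonoidHom (2 * m) : (ZMod q)ˣ →* (ZMod q)ˣ).ker.comap e.toMonoidHom
  have hH : Nat.card H = 2 * m := by
    have : Nat.card H = Nat.card (powMonoidHom (2 * m) : (ZMod q)ˣ →* (ZMod q)ˣ).ker :=
      Nat.card_congr (e.toEquiv.subtypeEquiv fun x => Iff.rfl)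
    rw [this, IsCyclic.card_powMonoidHom_ker, Nat.card_units, Nat.card_zmod]
    exact Nat.gcd_eq_right ⟨d, by rw [hm]; ring⟩
  refine ⟨lift (fixedField H), lift_le _, ?_, ?_⟩
  · rw [← (liftAlgEquiv (fixedField H)).toLinearEquiv.finrank_eq]
    have h := Module.finrank_mul_finrank ℚ (fixedField H) (Zeta q)
    rw [finrank_fixedField_eq_card, hH, finrank_Zeta, Nat.totient_prime hq, hm] at h
    exact Nat.eq_of_mul_eq_mul_right (by omega : 0 < 2 * m) (h.trans (by ring))
  · intro φ x
    obtain ⟨y, rfl⟩ := (liftAlgEquiv (fixedField H)).surjective x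
    let φ' : fixedField H →+* ℂ := φ.comp (liftAlgEquiv (fixedField H)).toRingEquiv.toRingHom
    show starRingEnd ℂ (φ' y) = φ' y
    let ψ : Zeta q →+* ℂ := ComplexEmbedding.lift (Zeta q) φ'
    obtain ⟨c, hc⟩ := ComplexEmbedding.exists_comp_symm_eq_of_comp_eq (k := ℚ)
      ψ (ComplexEmbedding.conjugate ψ) (RingHom.ext_rat _ _)
    have hc' : ∀ x, starRingEnd ℂ (ψ x) = ψ (c.symm x) := fun x =>
      (RingHom.congr_fun hc x).symm
    have hcc : c.symm * c.symm = 1 := by
      refine AlgEquiv.ext fun x => ψ.injective ?_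
      rw [AlgEquiv.mul_apply, ← hc', ← hc', Complex.conj_conj]
      rfl
    have hcH : c.symm ∈ H := by
      simp only [H, Subgroup.mem_comap, MonoidHom.mem_ker, powMonoidHom_apply]
      rw [pow_mul, sq]
      simp only [← map_mul, hcc, map_one, one_pow]
    have hφ : φ' y = ψ (y : Zeta q) :=
      (ComplexEmbedding.lift_algebraMap_apply (Zeta q) φ' y).symm
    rw [hφ, hc']
    exact congrArg ψ (y.2 ⟨c.symm, hcH⟩)

/-- Cyclotomic fields of distinct primes are linearly disjoint. -/
theorem disjoint_Zeta {p q : ℕ} (hp : p.Prime) (hq : q.Prime) (hpq : p ≠ q) :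
    (Zeta p).LinearDisjoint (Zeta q) := by
  have : NeZero p := ⟨hp.ne_zero⟩
  have : NeZero q := ⟨hq.ne_zero⟩
  have : FiniteDimensional ℚ (Zeta p) :=
    FiniteDimensional.of_finrank_pos (by rw [finrank_Zeta]; exact Nat.totient_pos.2 hp.pos)
  have : FiniteDimensional ℚ (Zeta q) :=
    FiniteDimensional.of_finrank_pos (by rw [finrank_Zeta]; exact Nat.totient_pos.2 hq.pos)
  refine LinearDisjoint.of_finrank_sup (le_antisymm (finrank_sup_le _ _) ?_)
  have hζp := Complex.isPrimitiveRoot_exp p hp.ne_zero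
  have hζq := Complex.isPrimitiveRoot_exp q hq.ne_zero
  have hcop : p.Coprime q := (Nat.coprime_primes hp hq).2 hpq
  have hprod : IsPrimitiveRoot (Complex.exp (2 * Real.pi * Complex.I / p) *
      Complex.exp (2 * Real.pi * Complex.I / q)) (p * q) := by
    rw [IsPrimitiveRoot.iff_orderOf, (Commute.all _ _).orderOf_mul_eq_mul_orderOf_of_coprime]
    · rw [← hζp.eq_orderOf, ← hζq.eq_orderOf]
    · rwa [← hζp.eq_orderOf, ← hζq.eq_orderOf]
  have : NeZero (p * q) := ⟨Nat.mul_ne_zero hp.ne_zero hq.ne_zero⟩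
  have hle : adjoin ℚ {Complex.exp (2 * Real.pi * Complex.I / p) *
      Complex.exp (2 * Real.pi * Complex.I / q)} ≤ Zeta p ⊔ Zeta q := by
    rw [adjoin_simple_le_iff]
    exact mul_mem ((le_sup_left : Zeta p ≤ Zeta p ⊔ Zeta q) (mem_adjoin_simple_self ℚ _))
      ((le_sup_right : Zeta q ≤ Zeta p ⊔ Zeta q) (mem_adjoin_simple_self ℚ _))
  rw [finrank_Zeta, finrank_Zeta, ← Nat.totient_mul hcop]
  calc (p * q).totient = Module.finrank ℚ (adjoin ℚ {Complex.exp (2 * Real.pi * Complex.I / p) *
        Complex.exp (2 * Real.pi * Complex.I / q)}) := by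
        rw [adjoin.finrank (hprod.isIntegral (NeZero.pos _)).tower_top,
          ← cyclotomic_eq_minpoly_rat hprod (NeZero.pos _), natDegree_cyclotomic]
    _ ≤ _ := LinearMap.finrank_le_finrank_of_injective
        (f := (IntermediateField.inclusion hle).toLinearMap)
        (IntermediateField.inclusion hle).injective

/-- Composite degree: totally real fields with discriminants tending to infinity which all contain
a root of one monic integer polynomial without integer roots. -/
theorem exists_fields (a b : ℕ) (ha : 2 ≤ a) (hb : 2 ≤ b) :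
    ∃ (P : Polynomial ℤ) (K : ℕ → IntermediateField ℚ ℂ) (hK : ∀ k, NumberField (K k))
      (σ : ∀ k, Fin (a * b) → K k →+* ℝ),
      P.Monic ∧ (∀ z : ℤ, P.eval z ≠ 0) ∧
      (∀ k, Module.finrank ℚ (K k) = a * b ∧ Function.Injective (σ k) ∧
        ∃ r : K k, IsIntegral ℤ r ∧ aeval r P = 0) ∧
      Filter.Tendsto (fun k => |@discr (K k) _ (hK k)|) Filter.atTop Filter.atTop := by
  obtain ⟨p, hp, -, hpmod⟩ := Nat.exists_prime_gt_modEq_one 2 (k := 2 * a) (by omega)
  obtain ⟨A, hAle, hAfin, hAreal⟩ :=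
    exists_real_subfield p a hp (by omega) ((Nat.modEq_iff_dvd' hp.one_le).1 hpmod.symm)
  choose q hq hqgt hqmod using fun k : ℕ =>
    Nat.exists_prime_gt_modEq_one (k + p + 1) (k := 2 * b) (by omega)
  choose B hBle hBfin hBreal using fun k => exists_real_subfield (q k) b (hq k) (by omega)
    ((Nat.modEq_iff_dvd' (hq k).one_le).1 (hqmod k).symm)
  have hApos : FiniteDimensional ℚ A := FiniteDimensional.of_finrank_pos (by omega)
  have hBpos : ∀ k, FiniteDimensional ℚ (B k) := fun k =>
    FiniteDimensional.of_finrank_pos (by rw [hBfin]; omega)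
  let K := fun k => A ⊔ B k
  have hKfd : ∀ k, FiniteDimensional ℚ (K k) := fun k => by
    have := hBpos k
    exact IntermediateField.finiteDimensional_sup A (B k)
  let hK : ∀ k, NumberField (K k) := fun k =>
    { to_charZero := inferInstance, to_finiteDimensional := hKfd k }
  have hfin : ∀ k, Module.finrank ℚ (K k) = a * b := fun k => by
    show Module.finrank ℚ ↥(A ⊔ B k) = a * b
    rw [((disjoint_Zeta hp (hq k) (by have := hqgt k; omega)).of_le hAle (hBle k)).finrank_sup,
      hAfin, hBfin]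
  have hreal : ∀ k (φ : K k →+* ℂ), ComplexEmbedding.IsReal φ := by
    intro k φ
    rw [ComplexEmbedding.isReal_iff]
    refine RingHom.ext fun x => ?_
    let f₁ : K k →ₐ[ℚ] ℂ := φ.toRatAlgHom
    let f₂ : K k →ₐ[ℚ] ℂ := (ComplexEmbedding.conjugate φ).toRatAlgHom
    let E : IntermediateField ℚ (K k) :=
      { Subfield.closure {y : K k | f₂ y = f₁ y} with
        algebraMap_mem' := fun r => Subfield.subset_closure (by
          show f₂ (algebraMap ℚ (K k) r) = f₁ (algebraMap ℚ (K k) r)
          rw [AlgHom.commutes, AlgHom.commutes]) }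
    have hE : ∀ y ∈ E, f₂ y = f₁ y := fun y hy => by
      have : Subfield.closure {y : K k | f₂ y = f₁ y} ≤
          (f₂ : K k →+* ℂ).eqLocusField f₁ := Subfield.closure_le.2 fun y hy => hy
      exact this hy
    have hA : A ≤ lift E := fun y hy => by
      have hyK : y ∈ K k := (le_sup_left : A ≤ K k) hy
      refine ⟨⟨y, hyK⟩, Subfield.subset_closure ?_, rfl⟩
      exact hAreal (φ.comp (IntermediateField.inclusion (le_sup_left : A ≤ K k)).toRingHom) ⟨y, hy⟩
    have hB : B k ≤ lift E := fun y hy => by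
      have hyK : y ∈ K k := (le_sup_right : B k ≤ K k) hy
      refine ⟨⟨y, hyK⟩, Subfield.subset_closure ?_, rfl⟩
      exact hBreal k (φ.comp (IntermediateField.inclusion (le_sup_right : B k ≤ K k)).toRingHom)
        ⟨y, hy⟩
    obtain ⟨y, hy, hyx⟩ := (sup_le hA hB : K k ≤ lift E) x.2
    exact (Subtype.ext hyx : y = x) ▸ hE y hy
  let e : ∀ k, Fin (a * b) ≃ (K k →+* ℂ) := fun k =>
    haveI := hK k
    (Fintype.equivFinOfCardEq ((NumberField.Embeddings.card (K k) ℂ).trans (hfin k))).symm
  -- an irrational algebraic integer in `A`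
  obtain ⟨x, hxA, hxQ⟩ : ∃ x ∈ A, x ∉ (⊥ : IntermediateField ℚ ℂ) := by
    by_contra h
    push Not at h
    have : A = ⊥ := le_antisymm h bot_le
    rw [this, IntermediateField.finrank_bot] at hAfin
    omega
  obtain ⟨r, hr0, hr⟩ := ((IsFractionRing.isAlgebraic_iff ℤ ℚ ℂ).2
    ((isAlgebraic_iff.1 (Algebra.IsAlgebraic.isAlgebraic (R := ℚ) (⟨x, hxA⟩ : A))))
      ).exists_integral_multiple
  have hαA : r • x ∈ A := zsmul_mem hxA r
  have hαQ : r • x ∉ (⊥ : IntermediateField ℚ ℂ) := by
    intro h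
    apply hxQ
    have hr' : (r : ℂ) ≠ 0 := Int.cast_ne_zero.2 hr0
    have hx : x = (r : ℂ)⁻¹ * (r • x) := by rw [zsmul_eq_mul]; field_simp
    rw [hx]
    exact mul_mem (inv_mem (intCast_mem _ r)) h
  generalize r • x = α at hr hαA hαQ
  refine ⟨minpoly ℤ α, K, hK, fun k i => (hreal k (e k i)).embedding, minpoly.monic hr,
    fun z hz => ?_, fun k => ⟨hfin k, ?_, ⟨α, (le_sup_left : A ≤ K k) hαA⟩, ?_, ?_⟩, ?_⟩
  · have hdvd : X - C z ∣ minpoly ℤ α := dvd_iff_isRoot.2 hz
    have heq : X - C z = minpoly ℤ α := eq_of_monic_of_associated (monic_X_sub_C z)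
      (minpoly.monic hr) ((irreducible_X_sub_C z).associated_of_dvd (minpoly.irreducible hr) hdvd)
    have h0 := minpoly.aeval ℤ α
    rw [← heq, map_sub, aeval_X, aeval_C, sub_eq_zero, eq_intCast] at h0
    exact hαQ (h0 ▸ intCast_mem _ z)
  · intro i j h
    refine (e k).injective (RingHom.ext fun y => ?_)
    rw [← (hreal k (e k i)).coe_embedding_apply y, ← (hreal k (e k j)).coe_embedding_apply y]
    exact congrArg _ (RingHom.congr_fun h y)
  · exact (isIntegral_algHom_iff ((K k).val.restrictScalars ℤ) (K k).val.injective).1 hr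
  · exact (aeval_algHom_apply ((K k).val.restrictScalars ℤ) _ _).symm.trans
      (minpoly.aeval ℤ α) |> fun h => (K k).val.injective (h.trans (map_zero _).symm)
  -- discriminants
  rw [Filter.tendsto_atTop]
  intro N
  rw [Filter.eventually_atTop]
  have hset : {k : ℕ | |@discr (K k) _ (hK k)| ≤ N}.Finite := by
    have h1 := NumberField.finite_of_discr_bdd ℂ N.toNat
    have h2 : {k : ℕ | |@discr (K k) _ (hK k)| ≤ N} ⊆ ⋃ F ∈ {F : {F : IntermediateField ℚ ℂ //
        FiniteDimensional ℚ F} | haveI : NumberField F := @NumberField.mk _ _ inferInstance F.prop;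
        |discr F| ≤ N.toNat}, {k : ℕ | K k = F.1} := by
      intro k hk
      simp only [Set.mem_iUnion]
      exact ⟨⟨K k, hKfd k⟩, le_trans hk (Int.self_le_toNat N), rfl⟩
    refine (h1.biUnion fun F _ => ?_).subset h2
    have : FiniteDimensional ℚ F.1 := F.2
    have : Algebra.IsSeparable ℚ F.1 := inferInstance
    have hI : Finite (@IntermediateField ℚ F.1 _ _ (IntermediateField.algebra' F.1)) := by
      have h0 : Finite (IntermediateField ℚ F.1) :=
        Field.finite_intermediateField_of_exists_primitive_element ℚ F.1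
          (Field.exists_primitive_element ℚ F.1)
      convert h0 using 3
      exact Subsingleton.elim _ _
    refine Set.Finite.subset ((Set.finite_range (lift (F := F.1))).biUnion
      (t := fun L => {k : ℕ | B k = L}) fun L _ => ?_) fun k hk => ?_
    · rcases Set.eq_empty_or_nonempty {k : ℕ | B k = L} with h0 | ⟨k₀, hk₀⟩
      · rw [h0]; exact Set.finite_empty
      refine (Set.finite_le_nat (q k₀)).subset fun k hk => ?_
      have hqk : q k = q k₀ := by
        by_contra hne
        have h := (((disjoint_Zeta (hq k) (hq k₀) hne).of_le (hBle k) (hBle k₀)).inf_eq_bot)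
        rw [show B k₀ = B k from hk₀.trans hk.symm, inf_idem] at h
        have := hBfin k
        rw [h, IntermediateField.finrank_bot] at this
        omega
      have := hqgt k
      exact (by omega : k ≤ q k₀)
    · have hle : B k ≤ F.1 := le_sup_right.trans (le_of_eq (show K k = F.1 from hk))
      exact Set.mem_biUnion ⟨restrict hle, lift_restrict hle⟩ rfl
  obtain ⟨M, hM⟩ := hset.bddAbove
  refine ⟨M + 1, fun k hk => le_of_lt (lt_of_not_ge fun h => ?_)⟩
  have := hM h
  omega

end Vale.Agent.P007.Composite
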