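import Vale.Agent.P007.RootTest
import Vale.Agent.P007.MaxFields

/-!
P007: in every composite degree the packets of maximal orders can avoid a fixed open set.
-/

namespace Vale.Agent.P007.Composite

open NumberField Polynomial

theorem exists_maximal_orders (n : ℕ) (hn : 4 ≤ n) (hnp : ¬ n.Prime) :
    ∃ (P : Polynomial ℤ) (K : ℕ → Type) (_ : ∀ k, Field (K k)) (_ : ∀ k, NumberField (K k))
      (σ : ∀ k, Fin n → K k →+* ℝ),
      (∀ k, Module.finrank ℚ (K k) = n ∧ Function.Injective (σ k) ∧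
        (∃ r ∈ (integralClosure ℤ (K k)).toSubring, aeval r P = 0) ∧
        (packetSet (σ k) (integralClosure ℤ (K k)).toSubring).Nonempty) ∧
      Filter.Tendsto (fun k => |NumberField.discr (K k)|) Filter.atTop Filter.atTop ∧
      HasRootTest n P := by
  obtain ⟨a, ⟨b, rfl⟩, ha, han⟩ := Nat.exists_dvd_of_not_prime2 (by omega) hnp
  have hb : 2 ≤ b := by nlinarith
  obtain ⟨P, K, hK, σ, hP, hroot, hdeg, hT⟩ := exists_fields a b ha hb
  refine ⟨P, fun k => K k, fun k => inferInstance, hK, σ, fun k => ?_, hT,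
    hasRootTest (by omega) hP hroot⟩
  obtain ⟨hfin, hσ, r, hr, hrP⟩ := hdeg k
  refine ⟨hfin, hσ, ⟨r, hr, hrP⟩, ?_⟩
  have := hK k
  let e : Module.Free.ChooseBasisIndex ℤ (𝓞 (K k)) ≃ Fin (a * b) :=
    Fintype.equivFinOfCardEq (by
      rw [← Module.finrank_eq_card_chooseBasisIndex, RingOfIntegers.rank, hfin])
  let B : Module.Basis (Fin (a * b)) ℤ (𝓞 (K k)) := (RingOfIntegers.basis (K k)).reindex e
  let BQ : Module.Basis (Fin (a * b)) ℚ (K k) := (integralBasis (K k)).reindex e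
  have hBQ : ∀ i, BQ i = (B i : K k) := fun i => by
    simp [BQ, B, integralBasis_apply]
  refine packetSet_nonempty (σ k) (by omega) _ (fun i => (B i : K k)) (fun x => ⟨fun hx => ?_, ?_⟩)
    (by simpa only [hBQ] using det_ne_zero (σ k) hσ BQ)
  · refine ⟨fun i => B.repr ⟨x, hx⟩ i, ?_⟩
    have := congrArg (fun y : 𝓞 (K k) => (y : K k)) (B.sum_repr ⟨x, hx⟩)
    simpa [map_sum, map_zsmul] using this.symm
  · rintro ⟨z, rfl⟩
    exact Subring.sum_mem _ fun i _ => Subring.zsmul_mem _ (B i).2 _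

end Vale.Agent.P007.Composite
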