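import Vale.Agent.P007.General

/-!
P007: from an invariant open set missed by all packets to failure of weak convergence on the
space of lattices.
-/

namespace Vale.Agent.P007.Composite

open Matrix Filter MeasureTheory

/-- The image of `SL n ℤ` in `SL n ℝ`. -/
def lattices (n : ℕ) : Subgroup (SpecialLinearGroup (Fin n) ℝ) :=
  (SpecialLinearGroup.map (n := Fin n) (Int.castRingHom ℝ)).range

/-- The points of the space of covolume one lattices, the class of `g⁻¹` standing for the row
lattice of `g`, whose lattice is `t * σ(I)` for a diagonal scaling `t` and an `S`-stable additive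
subgroup `I`. -/
def packetSet {n : ℕ} {K : Type} [Field K] (σ : Fin n → K →+* ℝ) (S : Subring K) :
    Set (SpecialLinearGroup (Fin n) ℝ ⧸ lattices n) :=
  {q | ∃ (g : SpecialLinearGroup (Fin n) ℝ) (I : AddSubgroup K) (t : Fin n → ℝ),
    (∀ a ∈ S, ∀ x ∈ I, a * x ∈ I) ∧
    {v | ∃ z : Fin n → ℤ, v = ∑ i, (z i : ℝ) • (g : Matrix (Fin n) (Fin n) ℝ) i} =
      (fun (x : K) (j : Fin n) => t j * σ j x) '' (I : Set K) ∧
    q = ((g⁻¹ : SpecialLinearGroup (Fin n) ℝ) : SpecialLinearGroup (Fin n) ℝ ⧸ lattices n)}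

/-- Orders with discriminants tending to infinity, with nonempty packet sets, and one continuous
compactly supported function `F ≥ 0`, not zero, which vanishes on all packet sets and along which no
sequence of probabilities carried by the packet sets tends to an invariant probability. -/
def FailsEquidistribution {n : ℕ} (K : Type) [Field K] (σ : Fin n → K →+* ℝ) : Prop :=
  ∃ (O : ℕ → Subring K) (b : ℕ → Fin n → K),
    (∀ k x, x ∈ O k ↔ ∃ z : Fin n → ℤ, x = ∑ i, z i • b k i) ∧
    (∀ k, (Matrix.of fun i j => σ j (b k i)).det ≠ 0) ∧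
    Tendsto (fun k => (Matrix.of fun i j => σ j (b k i)).det ^ 2) atTop atTop ∧
    (∀ k, (packetSet σ (O k)).Nonempty) ∧
    ∃ F : SpecialLinearGroup (Fin n) ℝ ⧸ lattices n → ℝ,
      Continuous F ∧ HasCompactSupport F ∧ (∀ q, 0 ≤ F q) ∧ (∃ q, F q ≠ 0) ∧
      (∀ k, ∀ q ∈ packetSet σ (O k), F q = 0) ∧
      ∀ [MeasurableSpace (SpecialLinearGroup (Fin n) ℝ ⧸ lattices n)]
        [BorelSpace (SpecialLinearGroup (Fin n) ℝ ⧸ lattices n)]
        (m : Measure (SpecialLinearGroup (Fin n) ℝ ⧸ lattices n)) [IsProbabilityMeasure m]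
        [SMulInvariantMeasure (SpecialLinearGroup (Fin n) ℝ)
          (SpecialLinearGroup (Fin n) ℝ ⧸ lattices n) m]
        (μ : ℕ → Measure (SpecialLinearGroup (Fin n) ℝ ⧸ lattices n)),
        (∀ k, IsProbabilityMeasure (μ k)) → (∀ k, μ k (packetSet σ (O k))ᶜ = 0) →
        ¬ Tendsto (fun k => ∫ q, F q ∂μ k) atTop (nhds (∫ q, F q ∂m))

variable {n : ℕ}

/-- `SL n ℝ`. -/
abbrev SLn (n : ℕ) : Type := SpecialLinearGroup (Fin n) ℝ

theorem isClosed_lattices :
    IsClosed (lattices n : Set (SLn n)) := by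
  have h : (lattices n : Set (SLn n)) =
      ⋂ i, ⋂ j, (fun g : SpecialLinearGroup (Fin n) ℝ => (g : Matrix (Fin n) (Fin n) ℝ) i j) ⁻¹'
        Set.range ((↑) : ℤ → ℝ) := by
    ext g
    simp only [lattices, MonoidHom.coe_range, Set.mem_range, Set.mem_iInter, Set.mem_preimage]
    constructor
    · rintro ⟨γ, rfl⟩ i j
      exact ⟨γ.1 i j, rfl⟩
    · intro hg
      choose z hz using hg
      have hdet : (Matrix.of z).det = 1 := by
        apply Int.cast_injective (α := ℝ)
        have := (Int.castRingHom ℝ).map_det (Matrix.of z)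
        rw [Int.cast_one]
        refine this.trans ?_
        rw [show (Int.castRingHom ℝ).mapMatrix (Matrix.of z) = g.1 from
          Matrix.ext fun i j => hz i j]
        exact g.2
      exact ⟨⟨Matrix.of z, hdet⟩, Subtype.ext (Matrix.ext fun i j => hz i j)⟩
  rw [h]
  exact isClosed_iInter fun i => isClosed_iInter fun j =>
    Int.isClosedEmbedding_coe_real.isClosed_range.preimage
      (continuous_subtype_val.matrix_elem i j)

theorem failsEquidistribution {K : Type} [Field K] (σ : Fin n → K →+* ℝ) (hn : 0 < n)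
    (h : HasObstructedOrders K σ) : FailsEquidistribution K σ := by
  obtain ⟨O, b, hb, hdet, hT, U, hUo, hU1, hUinv, hU⟩ := h
  refine ⟨O, b, hb, hdet, hT, fun k => ?_, ?_⟩
  · -- the packet set is nonempty
    set M := (Matrix.of fun i j => σ j (b k i)) with hM
    let j₀ : Fin n := ⟨0, hn⟩
    let t : Fin n → ℝ := Function.update (fun _ => (1 : ℝ)) j₀ M.det⁻¹
    have hd : (Matrix.of fun i j => t j * M i j).det = 1 := by
      rw [Matrix.det_mul_row, Finset.prod_update_of_mem (Finset.mem_univ j₀),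
        Finset.prod_const_one, mul_one, inv_mul_cancel₀ (hdet k)]
    let g : SpecialLinearGroup (Fin n) ℝ := ⟨_, hd⟩
    refine ⟨_, g, (O k).toAddSubgroup, t, fun a ha x hx => (O k).mul_mem ha hx, ?_, rfl⟩
    ext v
    constructor
    · rintro ⟨z, rfl⟩
      refine ⟨∑ i, z i • b k i, (hb k _).2 ⟨z, rfl⟩, funext fun j => ?_⟩
      simp only [g, M, map_sum, zsmul_eq_mul, Finset.mul_sum, Finset.sum_apply,
        Pi.smul_apply, smul_eq_mul, Matrix.of_apply]
      exact Finset.sum_congr rfl fun i _ => by rw [map_mul, map_intCast]; ring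
    · rintro ⟨x, hx, rfl⟩
      obtain ⟨z, rfl⟩ := (hb k x).1 hx
      refine ⟨z, funext fun j => ?_⟩
      simp only [g, M, map_sum, zsmul_eq_mul, Finset.mul_sum, Finset.sum_apply,
        Pi.smul_apply, smul_eq_mul, Matrix.of_apply]
      exact Finset.sum_congr rfl fun i _ => by rw [map_mul, map_intCast]; ring
  have : IsClosed (lattices n : Set (SLn n)) := isClosed_lattices
  have hemb : Topology.IsClosedEmbedding (fun g : SLn n => (g : Matrix (Fin n) (Fin n) ℝ)) :=
    (isClosed_eq continuous_id.matrix_det continuous_const).isClosedEmbedding_subtypeVal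
  have : LocallyCompactSpace (Matrix (Fin n) (Fin n) ℝ) :=
    inferInstanceAs (LocallyCompactSpace (Fin n → Fin n → ℝ))
  have : SecondCountableTopology (Matrix (Fin n) (Fin n) ℝ) :=
    inferInstanceAs (SecondCountableTopology (Fin n → Fin n → ℝ))
  have : LocallyCompactSpace (SLn n) := hemb.locallyCompactSpace
  have : SecondCountableTopology (SLn n) := hemb.isEmbedding.secondCountableTopology
  -- the open set in the space of lattices
  let V : Set (SLn n ⧸ lattices n) :=
    (fun g : SLn n => ((g⁻¹ : SLn n) : SLn n ⧸ lattices n)) '' U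
  have hVo : IsOpen V := by
    have : V = (QuotientGroup.mk : SLn n → SLn n ⧸ lattices n) '' ((fun g => g⁻¹) '' U) := by
      exact (Set.image_image QuotientGroup.mk _ U).symm
    rw [this]
    exact QuotientGroup.isOpenMap_coe _ ((Homeomorph.inv (SLn n)).isOpenMap U hUo)
  have hVk : ∀ k, V ⊆ (packetSet σ (O k))ᶜ := by
    rintro k q ⟨g, hg, rfl⟩ ⟨h, I, t, hI, heq, hq⟩
    obtain ⟨γ, hγ⟩ := QuotientGroup.eq.1 hq
    have : SpecialLinearGroup.map (Int.castRingHom ℝ) γ⁻¹ * g = h := by
      rw [map_inv, hγ]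
      simp
    exact hU k I hI t h (this ▸ hUinv γ⁻¹ g hg) heq
  obtain ⟨g₁, hg₁⟩ := hU1
  set q₁ : (SLn n) ⧸ lattices n := ((g₁⁻¹ : (SLn n)) : (SLn n) ⧸ lattices n) with hq₁
  obtain ⟨F, hF1, hF0, hFc, hF01⟩ := exists_continuous_one_zero_of_isCompact
    (isCompact_singleton (x := q₁)) hVo.isClosed_compl
    (Set.disjoint_singleton_left.2 fun h => h ⟨g₁, hg₁, rfl⟩)
  refine ⟨F, F.continuous, hFc, fun q => (hF01 q).1,
    ⟨q₁, by rw [hF1 (Set.mem_singleton q₁)]; exact one_ne_zero⟩,
    fun k q hq => hF0 fun hV => hVk k hV hq, ?_⟩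
  intro _ _ m _ _ μ hμ hcar
  have : m.IsOpenPosMeasure := by
    refine ⟨fun W hW ⟨w, hw⟩ hW0 => ?_⟩
    have hcov : (⋃ x : (SLn n), (fun q => x • q) ⁻¹' W) = Set.univ := by
      refine Set.eq_univ_of_forall fun q => ?_
      obtain ⟨x, hx⟩ := MulAction.exists_smul_eq (SLn n) q w
      exact Set.mem_iUnion.2 ⟨x, by simpa [hx] using hw⟩
    obtain ⟨T, hTc, hTu⟩ := TopologicalSpace.isOpen_iUnion_countable
      (fun x : (SLn n) => (fun q : (SLn n) ⧸ lattices n => x • q) ⁻¹' W)
      fun x => hW.preimage (continuous_const_smul x)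
    have hz : m (⋃ x : (SLn n), (fun q => x • q) ⁻¹' W) = 0 := by
      rw [← hTu]
      exact (measure_biUnion_null_iff hTc).2 fun x _ => by
        rw [SMulInvariantMeasure.measure_preimage_smul x hW.measurableSet, hW0]
    rw [hcov, measure_univ] at hz
    exact one_ne_zero hz
  have hpos : 0 < ∫ q, F q ∂m :=
    F.continuous.integral_pos_of_hasCompactSupport_nonneg_nonzero hFc (fun q => (hF01 q).1)
      (x := q₁) (by rw [hF1 (Set.mem_singleton q₁)]; exact one_ne_zero)
  intro hlim
  have hzero : (fun k => ∫ q, F q ∂μ k) = fun _ => (0 : ℝ) := by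
    funext k
    refine integral_eq_zero_of_ae (measure_mono_null (fun q hq => ?_) (hcar k))
    intro hqP
    exact hq (hF0 fun hV => hVk k hV hqP)
  rw [hzero] at hlim
  exact hpos.ne' (tendsto_nhds_unique hlim tendsto_const_nhds)

end Vale.Agent.P007.Composite
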