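import Vale.Agent.P007.Measure

/-!
P007: one test function for all packets of all orders containing a root of a fixed polynomial.
-/

namespace Vale.Agent.P007.Composite

open Matrix Filter MeasureTheory Polynomial

/-- One continuous compactly supported `F ≥ 0`, not zero, which vanishes on the packet set of every
subring containing a root of `P`, in every field and for every ordering of real embeddings, and
which separates an invariant probability from all probabilities carried by such packet sets. -/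
def HasRootTest (n : ℕ) (P : Polynomial ℤ) : Prop :=
  ∃ F : SpecialLinearGroup (Fin n) ℝ ⧸ lattices n → ℝ,
    Continuous F ∧ HasCompactSupport F ∧ (∀ q, 0 ≤ F q) ∧ (∃ q, F q ≠ 0) ∧
    (∀ (K : Type) [Field K] (σ : Fin n → K →+* ℝ) (S : Subring K),
      (∃ r ∈ S, aeval r P = 0) → ∀ q ∈ packetSet σ S, F q = 0) ∧
    ∀ [MeasurableSpace (SpecialLinearGroup (Fin n) ℝ ⧸ lattices n)]
      [BorelSpace (SpecialLinearGroup (Fin n) ℝ ⧸ lattices n)]
      (m : Measure (SpecialLinearGroup (Fin n) ℝ ⧸ lattices n)) [IsProbabilityMeasure m]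
      [SMulInvariantMeasure (SpecialLinearGroup (Fin n) ℝ)
        (SpecialLinearGroup (Fin n) ℝ ⧸ lattices n) m]
      (K : ℕ → Type) [∀ k, Field (K k)] (σ : ∀ k, Fin n → K k →+* ℝ) (S : ∀ k, Subring (K k)),
      (∀ k, ∃ r ∈ S k, aeval r P = 0) →
      ∀ μ : ℕ → Measure (SpecialLinearGroup (Fin n) ℝ ⧸ lattices n),
        (∀ k, IsProbabilityMeasure (μ k)) → (∀ k, μ k (packetSet (σ k) (S k))ᶜ = 0) →
        ¬ Tendsto (fun k => ∫ q, F q ∂μ k) atTop (nhds (∫ q, F q ∂m))

variable {n : ℕ}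

theorem isOpenPosMeasure_of_invariant
    [MeasurableSpace (SLn n ⧸ lattices n)] [BorelSpace (SLn n ⧸ lattices n)]
    [SecondCountableTopology (SLn n ⧸ lattices n)]
    (m : Measure (SLn n ⧸ lattices n)) [IsProbabilityMeasure m]
    [SMulInvariantMeasure (SLn n) (SLn n ⧸ lattices n) m] : m.IsOpenPosMeasure := by
  refine ⟨fun W hW ⟨w, hw⟩ hW0 => ?_⟩
  have hcov : (⋃ x : SLn n, (fun q => x • q) ⁻¹' W) = Set.univ := by
    refine Set.eq_univ_of_forall fun q => ?_
    obtain ⟨x, hx⟩ := MulAction.exists_smul_eq (SLn n) q w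
    exact Set.mem_iUnion.2 ⟨x, by simpa [hx] using hw⟩
  obtain ⟨T, hTc, hTu⟩ := TopologicalSpace.isOpen_iUnion_countable
    (fun x : SLn n => (fun q : SLn n ⧸ lattices n => x • q) ⁻¹' W)
    fun x => hW.preimage (continuous_const_smul x)
  have hz : m (⋃ x : SLn n, (fun q => x • q) ⁻¹' W) = 0 := by
    rw [← hTu]
    exact (measure_biUnion_null_iff hTc).2 fun x _ => by
      rw [SMulInvariantMeasure.measure_preimage_smul x hW.measurableSet, hW0]
  rw [hcov, measure_univ] at hz
  exact one_ne_zero hz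

theorem hasRootTest (hn : 0 < n) {P : Polynomial ℤ} (hP : P.Monic)
    (hroot : ∀ z : ℤ, P.eval z ≠ 0) : HasRootTest n P := by
  have hfin : Set.Finite {d : Fin n → ℝ | ∀ j, aeval (d j) P = 0} := by
    refine (Set.Finite.pi' fun _ => (P.rootSet_finite ℝ)).subset fun d hd j => ?_
    exact Polynomial.mem_rootSet.2 ⟨hP.ne_zero, hd j⟩
  let U : Set (SLn n) := ⋂ d ∈ {d : Fin n → ℝ | ∀ j, aeval (d j) P = 0}, bad (diagonal d)
  have hUo : IsOpen U := hfin.isOpen_biInter fun d _ => bad_isOpen _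
  have hU1 : (1 : SLn n) ∈ U := Set.mem_iInter₂.2 fun d hd =>
    one_mem_bad ⟨0, hn⟩ (by
      rintro ⟨z, hz⟩
      have h := hd ⟨0, hn⟩
      rw [← hz, ← eq_intCast (algebraMap ℤ ℝ), aeval_algebraMap_apply, coe_aeval_eq_eval,
        eq_intCast, Int.cast_eq_zero] at h
      exact hroot z h)
  have hUinv : ∀ γ : SpecialLinearGroup (Fin n) ℤ, ∀ g ∈ U,
      SpecialLinearGroup.map (Int.castRingHom ℝ) γ * g ∈ U := fun γ g hg =>
    Set.mem_iInter₂.2 fun d hd => bad_smul _ γ g (Set.mem_iInter₂.1 hg d hd)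
  have : IsClosed (lattices n : Set (SLn n)) := isClosed_lattices
  have hemb : Topology.IsClosedEmbedding (fun g : SLn n => (g : Matrix (Fin n) (Fin n) ℝ)) :=
    (isClosed_eq continuous_id.matrix_det continuous_const).isClosedEmbedding_subtypeVal
  have : LocallyCompactSpace (Matrix (Fin n) (Fin n) ℝ) :=
    inferInstanceAs (LocallyCompactSpace (Fin n → Fin n → ℝ))
  have : SecondCountableTopology (Matrix (Fin n) (Fin n) ℝ) :=
    inferInstanceAs (SecondCountableTopology (Fin n → Fin n → ℝ))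
  have : LocallyCompactSpace (SLn n) := hemb.locallyCompactSpace
  have : SecondCountableTopology (SLn n) := hemb.isEmbedding.secondCountableTopology
  let V : Set (SLn n ⧸ lattices n) := (fun g : SLn n => ((g⁻¹ : SLn n) : SLn n ⧸ lattices n)) '' U
  have hVo : IsOpen V := by
    have : V = (QuotientGroup.mk : SLn n → SLn n ⧸ lattices n) '' ((fun g => g⁻¹) '' U) := by
      exact (Set.image_image QuotientGroup.mk _ U).symm
    rw [this]
    exact QuotientGroup.isOpenMap_coe _ ((Homeomorph.inv (SLn n)).isOpenMap U hUo)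
  have hVS : ∀ (K : Type) [Field K] (σ : Fin n → K →+* ℝ) (S : Subring K),
      (∃ r ∈ S, aeval r P = 0) → ∀ q ∈ packetSet σ S, q ∉ V := by
    rintro K _ σ S ⟨r, hrS, hr⟩ q ⟨h, I, t, hI, heq, hq'⟩ ⟨g, hg, hq⟩
    have hq2 := hq.trans hq'
    obtain ⟨γ, hγ⟩ := QuotientGroup.eq.1 hq2
    have : SpecialLinearGroup.map (Int.castRingHom ℝ) γ⁻¹ * g = h := by
      rw [map_inv, hγ]
      simp
    refine packet_notMem σ r S hrS I hI t h
      (Set.mem_iInter₂.1 (this ▸ hUinv γ⁻¹ g hg) _ fun j => ?_) heq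
    show aeval ((σ j).toIntAlgHom r) P = 0
    rw [aeval_algHom_apply, hr, map_zero]
  set q₁ : SLn n ⧸ lattices n := (((1 : SLn n)⁻¹ : SLn n) : SLn n ⧸ lattices n) with hq₁
  obtain ⟨F, hF1, hF0, hFc, hF01⟩ := exists_continuous_one_zero_of_isCompact
    (isCompact_singleton (x := q₁)) hVo.isClosed_compl
    (Set.disjoint_singleton_left.2 fun h => h ⟨1, hU1, rfl⟩)
  have hne : F q₁ ≠ 0 := by rw [hF1 (Set.mem_singleton q₁)]; exact one_ne_zero
  refine ⟨F, F.continuous, hFc, fun q => (hF01 q).1, ⟨q₁, hne⟩,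
    fun K _ σ S h q hq => hF0 (hVS K σ S h q hq), ?_⟩
  intro _ _ m _ _ K _ σ S hS μ hμ hcar hlim
  have := isOpenPosMeasure_of_invariant m
  have hpos : 0 < ∫ q, F q ∂m :=
    F.continuous.integral_pos_of_hasCompactSupport_nonneg_nonzero hFc (fun q => (hF01 q).1) hne
  have hzero : (fun k => ∫ q, F q ∂μ k) = fun _ => (0 : ℝ) := by
    funext k
    refine integral_eq_zero_of_ae (measure_mono_null (fun q hq => ?_) (hcar k))
    exact fun hqP => hq (hF0 (hVS _ _ _ (hS k) q hqP))
  rw [hzero] at hlim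
  exact hpos.ne' (tendsto_nhds_unique hlim tendsto_const_nhds)

/-- The packet set of an order given by a basis is nonempty. -/
theorem packetSet_nonempty {K : Type} [Field K] (σ : Fin n → K →+* ℝ) (hn : 0 < n)
    (S : Subring K) (b : Fin n → K) (hb : ∀ x, x ∈ S ↔ ∃ z : Fin n → ℤ, x = ∑ i, z i • b i)
    (hdet : (Matrix.of fun i j => σ j (b i)).det ≠ 0) : (packetSet σ S).Nonempty := by
  let j₀ : Fin n := ⟨0, hn⟩
  let t : Fin n → ℝ :=
    Function.update (fun _ => (1 : ℝ)) j₀ (Matrix.of fun i j => σ j (b i)).det⁻¹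
  have hd : (Matrix.of fun i j => t j * (Matrix.of fun i j => σ j (b i)) i j).det = 1 := by
    rw [Matrix.det_mul_row, Finset.prod_update_of_mem (Finset.mem_univ j₀),
      Finset.prod_const_one, mul_one, inv_mul_cancel₀ hdet]
  refine ⟨_, ⟨_, hd⟩, S.toAddSubgroup, t, fun a ha x hx => S.mul_mem ha hx, ?_, rfl⟩
  ext v
  constructor
  · rintro ⟨z, rfl⟩
    refine ⟨∑ i, z i • b i, (hb _).2 ⟨z, rfl⟩, funext fun j => ?_⟩
    simp only [map_sum, zsmul_eq_mul, Finset.mul_sum, Finset.sum_apply,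
      Pi.smul_apply, smul_eq_mul, Matrix.of_apply]
    exact Finset.sum_congr rfl fun i _ => by rw [map_mul, map_intCast]; ring
  · rintro ⟨x, hx, rfl⟩
    obtain ⟨z, rfl⟩ := (hb x).1 hx
    refine ⟨z, funext fun j => ?_⟩
    simp only [map_sum, zsmul_eq_mul, Finset.mul_sum, Finset.sum_apply,
      Pi.smul_apply, smul_eq_mul, Matrix.of_apply]
    exact Finset.sum_congr rfl fun i _ => by rw [map_mul, map_intCast]; ring

end Vale.Agent.P007.Composite
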